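import Vale.Agent.P022D.Du.Bas
import Vale.Agent.P022E.PA.Defs

namespace Vale.Agent.P022E.Du
export Vale.Agent.P022D.Du (
  qr_inj exists_eval mem_smul_top_fg add_apply exists_dual apply_eq_zero dual_exact
  mem_smul_top qr annihilator_le card_le isPrecomplete_pi sum_apply dual_app isHausdorff
  annihilator_ge span_kill sub_apply annihilator_eq)
end Vale.Agent.P022E.Du
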