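import Vale.Agent.P022D.Du.Gen
import Vale.Agent.P022E.Du.Bas

namespace Vale.Agent.P022E.Du
export Vale.Agent.P022D.Du (
  mem_of_perp finite_dual exists_span_of_card cyc Disc finite_torsion_pow card_of_span
  gen_of_card)
end Vale.Agent.P022E.Du
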