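import Vale.Agent.P022D.Du.Soc
import Vale.Agent.P022E.Du.Bas

namespace Vale.Agent.P022E.Du
export Vale.Agent.P022D.Du (
  root_aux mul_nm soc_bar higman nm pow_two_pow_mem exists_nu' exists_nu act_prod soc_div
  fib fib_inj soc_of sum_act)
end Vale.Agent.P022E.Du
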